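import Vale.Agent.P013.Dens

/-!
# P013: Vaughan's bound for Jacobsthal's function away from dense sets of medium primes

`jac n` is Jacobsthal's function.  The estimate `j(n) <= (9/ε) ω(n)^(1+ε)` holds for every
`n > 1` whose prime factors above `ω(n)^δ` have reciprocal sum at most `1 - ε`; hence the
bound `j(n) <= C(P,ε) ω(n)^(1+ε)` holds, for every `ε > 0`, for all `n` composed of primes of a
set `P` of relative density zero in the primes.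
-/

open Finset

namespace Vale.Agent.Results.P013.VaughanThin

open Vale.Agent.P013 in
theorem result :
    (∀ n : ℕ, 0 < n → IsLeast {m : ℕ | 0 < m ∧ ∀ a : ℤ, ∃ i : ℕ, i < m ∧
      IsCoprime (a + i) (n : ℤ)} (jac n)) ∧
    (∀ ε : ℝ, 0 < ε → ε < 1 → ∃ δ : ℝ, 0 < δ ∧ ∀ n : ℕ, 1 < n →
      (∑ p ∈ n.primeFactors.filter (fun p : ℕ => ((n.primeFactors.card : ℝ)) ^ δ < (p : ℝ)),
        1 / (p : ℝ)) ≤ 1 - ε →
      (jac n : ℝ) ≤ 9 / ε * (n.primeFactors.card : ℝ) ^ (1 + ε)) ∧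
    (∀ ε : ℝ, 0 < ε → ε < 1 / 2 → ∃ A : ℝ, 1 < A ∧ ∀ (P : Set ℕ) (w₀ : ℝ),
      (∀ (w : ℝ) (s : Finset ℕ), w₀ ≤ w →
        (∀ p ∈ s, p.Prime ∧ p ∈ P ∧ w < p ∧ (p : ℝ) ≤ w ^ A) →
        ∑ p ∈ s, 1 / (p : ℝ) ≤ 1 - 2 * ε) →
      ∃ C : ℝ, 0 < C ∧ ∀ n : ℕ, 1 < n → (∀ p ∈ n.primeFactors, p ∈ P) →
        (jac n : ℝ) ≤ C * (n.primeFactors.card : ℝ) ^ (1 + ε)) ∧
    (∀ P : Set ℕ, Filter.Tendsto
      (fun N : ℕ => (({p : ℕ | p.Prime ∧ p ∈ P ∧ p ≤ N}.ncard : ℕ) : ℝ) * Real.log N / N)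
        Filter.atTop (nhds 0) →
      ∀ ε : ℝ, 0 < ε → ∃ C : ℝ, 0 < C ∧ ∀ n : ℕ, 1 < n → (∀ p ∈ n.primeFactors, p ∈ P) →
        (jac n : ℝ) ≤ C * (n.primeFactors.card : ℝ) ^ (1 + ε)) :=
  ⟨fun _ hn => jac_isLeast hn, fun _ hε hε1 => vaughan hε hε1, fun _ hε hε1 => thin hε hε1,
    fun P hP _ hε => density_zero P hP hε⟩

end Vale.Agent.Results.P013.VaughanThin
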